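import Vale.Agent.P038.H619.InOut
import Vale.Agent.P038.S450.G

/-! P038, helper619: Seymour's second neighbourhood conjecture. -/

namespace P038.H619

open Finset Vale.Agent.P038 Vale.Agent.P038.H139

universe u

/-- closed out-neighbour relation -/
def rr {V : Type u} (D : OGraph V) (a b : V) : Prop := a = b ∨ D.arc a b

theorem nb_eq_cl {V : Type u} [Fintype V] (D : OGraph V) (S : Finset V) :
    nb (rr D) S = cl D S := by
  classical
  ext z
  rw [mem_nb, mem_cl]
  constructor
  · rintro ⟨x, hx, rfl | h⟩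
    · exact Or.inl hx
    · exact Or.inr ⟨x, hx, h⟩
  · rintro (h | ⟨y, hy, h⟩)
    · exact ⟨z, h, Or.inl rfl⟩
    · exact ⟨y, hy, Or.inr h⟩

/-- no counterexample with the fewest arcs -/
theorem no_min {V : Type u} [Fintype V] [DecidableEq V] [Nonempty V] (D : OGraph V)
    (hCE : ∀ v, (N2 D v).card < (N1 D v).card)
    (hmin : ∀ D' : OGraph V, (∀ v, (N2 D' v).card < (N1 D' v).card) →
      (∑ v, (N1 D v).card) ≤ ∑ v, (N1 D' v).card) : False := by
  apply no_G (rr D) (fun a => Or.inl rfl)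
  · rintro a b (h | h) (h' | h')
    · exact h
    · exact h
    · exact h'.symm
    · exact absurd h' (D.asymm a b h)
  · intro a
    have h1 : 0 < (N1 D a).card := lt_of_le_of_lt (Nat.zero_le _) (hCE a)
    obtain ⟨b, hb⟩ := Finset.card_pos.1 h1
    rw [mem_N1] at hb
    refine ⟨b, ?_, Or.inr hb⟩
    rintro rfl
    exact D.loopless b hb
  · intro S hS
    rw [nb_eq_cl] at hS
    rw [nb_eq_cl, nb_eq_cl]
    exact S450.G D hCE hmin S hS

/-- **Seymour's second neighbourhood conjecture.** -/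
theorem snc {V : Type u} [Fintype V] [Nonempty V] (D : OGraph V) :
    ∃ v, (N1 D v).card ≤ (N2 D v).card := by
  classical
  by_contra hcon
  push Not at hcon
  have hex : ∃ n : ℕ, ∃ D' : OGraph V, (∀ v, (N2 D' v).card < (N1 D' v).card) ∧
      (∑ v, (N1 D' v).card) = n := ⟨_, D, hcon, rfl⟩
  obtain ⟨D0, h0, hn⟩ := Nat.find_spec hex
  apply no_min D0 h0
  intro D' hD'
  rw [hn]
  exact Nat.find_min' hex ⟨D', hD', rfl⟩

end P038.H619
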