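import Vale.Agent.P038.H619.Key

/-! P038, helper619: from the KEY LEMMA to the contradiction with (G), card form. -/

namespace P038.H619

open Finset

universe u

section
variable {V : Type u} [Fintype V] [DecidableEq V] (r : V → V → Prop)

open Classical in
/-- closed out-neighbourhood -/
noncomputable def nb (S : Finset V) : Finset V := univ.filter fun z => ∃ x ∈ S, r x z

open Classical in
/-- dilation in the first coordinate -/
noncomputable def Jd (X : Finset (V × V)) : Finset (V × V) :=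
  univ.filter fun p => ∃ y, r y p.1 ∧ (y, p.2) ∈ X

/-- rows -/
def row (X : Finset (V × V)) (a : V) : Finset V := univ.filter fun x => (a, x) ∈ X

/-- columns -/
def col (X : Finset (V × V)) (b : V) : Finset V := univ.filter fun y => (y, b) ∈ X

variable {r}

theorem mem_nb {S : Finset V} {z : V} : z ∈ nb r S ↔ ∃ x ∈ S, r x z := by simp [nb]

theorem mem_Jd {X : Finset (V × V)} {z b : V} :
    (z, b) ∈ Jd r X ↔ ∃ y, r y z ∧ (y, b) ∈ X := by simp [Jd]

theorem mem_row {X : Finset (V × V)} {a x : V} : x ∈ row X a ↔ (a, x) ∈ X := by simp [row]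

theorem mem_col {X : Finset (V × V)} {b y : V} : y ∈ col X b ↔ (y, b) ∈ X := by simp [col]

theorem row_Ed (X : Finset (V × V)) (a : V) : row (Ed r X) a = nb r (row X a) := by
  ext x
  rw [mem_row, mem_Ed, mem_nb]
  constructor
  · rintro ⟨y, h1, h2⟩
    exact ⟨y, mem_row.2 h2, h1⟩
  · rintro ⟨y, h1, h2⟩
    exact ⟨y, h2, mem_row.1 h1⟩

theorem col_Jd (X : Finset (V × V)) (b : V) : col (Jd r X) b = nb r (col X b) := by
  ext x
  rw [mem_col, mem_Jd, mem_nb]
  constructor
  · rintro ⟨y, h1, h2⟩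
    exact ⟨y, mem_col.2 h2, h1⟩
  · rintro ⟨y, h1, h2⟩
    exact ⟨y, h2, mem_col.1 h1⟩

theorem card_rows (X Y : Finset (V × V)) :
    (Y \ X).card = ∑ a, (row Y a \ row X a).card := by
  rw [Finset.card_eq_sum_card_fiberwise (f := Prod.fst) (t := univ) (fun _ _ => by simp)]
  apply Finset.sum_congr rfl
  intro a _
  apply Finset.card_bij (fun p _ => p.2)
  · rintro ⟨i, j⟩ hp
    simp only [Finset.mem_filter, Finset.mem_sdiff] at hp
    obtain ⟨⟨h1, h2⟩, rfl⟩ := hp
    rw [Finset.mem_sdiff, mem_row, mem_row]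
    exact ⟨h1, h2⟩
  · rintro ⟨i, j⟩ hp ⟨i', j'⟩ hp' h
    simp only [Finset.mem_filter] at hp hp'
    obtain ⟨-, rfl⟩ := hp
    obtain ⟨-, h3⟩ := hp'
    simp only at h h3
    rw [h, h3]
  · intro b hb
    rw [Finset.mem_sdiff, mem_row, mem_row] at hb
    exact ⟨(a, b), by simp [hb], rfl⟩

theorem card_cols (X Y : Finset (V × V)) :
    (Y \ X).card = ∑ a, (col Y a \ col X a).card := by
  rw [Finset.card_eq_sum_card_fiberwise (f := Prod.snd) (t := univ) (fun _ _ => by simp)]
  apply Finset.sum_congr rfl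
  intro a _
  apply Finset.card_bij (fun p _ => p.1)
  · rintro ⟨i, j⟩ hp
    simp only [Finset.mem_filter, Finset.mem_sdiff] at hp
    obtain ⟨⟨h1, h2⟩, rfl⟩ := hp
    rw [Finset.mem_sdiff, mem_col, mem_col]
    exact ⟨h1, h2⟩
  · rintro ⟨i, j⟩ hp ⟨i', j'⟩ hp' h
    simp only [Finset.mem_filter] at hp hp'
    obtain ⟨-, rfl⟩ := hp
    obtain ⟨-, h3⟩ := hp'
    simp only at h h3
    rw [h, h3]
  · intro b hb
    rw [Finset.mem_sdiff, mem_col, mem_col] at hb
    exact ⟨(b, a), by simp [hb], rfl⟩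

variable (hrefl : ∀ a, r a a)
include hrefl

theorem sub_Ed (X : Finset (V × V)) : X ⊆ Ed r X := by
  rintro ⟨a, b⟩ h
  exact mem_Ed.2 ⟨b, hrefl b, h⟩

theorem Ad_sub (X : Finset (V × V)) : Ad r X ⊆ X := by
  rintro ⟨a, b⟩ h
  exact mem_Ad.1 h a (hrefl a)

theorem sub_Jd (X : Finset (V × V)) : X ⊆ Jd r X := by
  rintro ⟨a, b⟩ h
  exact mem_Jd.2 ⟨a, hrefl a, h⟩

theorem sub_nb (S : Finset V) : S ⊆ nb r S := fun x hx => mem_nb.2 ⟨x, hx, hrefl x⟩

omit hrefl in
/-- outer pairs -/
def Out (r : V → V → Prop) (X U : Finset (V × V)) : Prop :=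
  (∀ a b, r a b → (a, b) ∈ X) ∧ X ⊆ U ∧ ∀ a b, (a, b) ∈ U → r b a → a = b

omit hrefl in
/-- outer cost -/
noncomputable def oc (r : V → V → Prop) (X U : Finset (V × V)) : ℕ :=
  (Ed r X \ X).card + (U \ Ad r U).card

open Classical in
/-- rows of an outer optimum -/
theorem rowOpt {X U : Finset (V × V)} (hO : Out r X U)
    (hmin : ∀ X' U', Out r X' U' → oc r X U ≤ oc r X' U') (a : V) (S : Finset V)
    (hS : ∀ x ∈ S, (a, x) ∈ U ∧ (a, x) ∉ X) :
    S.card ≤ (univ.filter fun x' => (∃ x ∈ S, r x x') ∧ (a, x') ∉ Ed r X).card := by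
  classical
  set T := univ.filter fun x' => (∃ x ∈ S, r x x') ∧ (a, x') ∉ Ed r X with hT
  have hinj : Function.Injective (fun x : V => (a, x)) := fun x y h => (Prod.ext_iff.1 h).2
  set X' := X ∪ S.image (fun x => (a, x)) with hX'
  have hEd : Ed r X' = Ed r X ∪ T.image (fun x => (a, x)) := by
    ext ⟨c, y⟩
    simp only [Finset.mem_union, Finset.mem_image, mem_Ed, hX', hT, Finset.mem_filter,
      Finset.mem_univ, true_and, Prod.mk.injEq]
    constructor
    · rintro ⟨x, hx, h | ⟨x1, hx1, rfl, rfl⟩⟩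
      · exact Or.inl ⟨x, hx, h⟩
      · by_cases hE : ∃ t, r t y ∧ (a, t) ∈ X
        · exact Or.inl hE
        · exact Or.inr ⟨y, ⟨⟨x1, hx1, hx⟩, hE⟩, rfl, rfl⟩
    · rintro (⟨x, hx, h⟩ | ⟨x1, ⟨⟨x2, hx2, hr⟩, _⟩, rfl, rfl⟩)
      · exact ⟨x, hx, Or.inl h⟩
      · exact ⟨x2, hr, Or.inr ⟨x2, hx2, rfl, rfl⟩⟩
  have hc1 : X'.card = X.card + S.card := by
    rw [hX', Finset.card_union_of_disjoint, Finset.card_image_of_injective _ hinj]
    rw [Finset.disjoint_left]
    rintro p hp hp'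
    obtain ⟨x, hx, rfl⟩ := Finset.mem_image.1 hp'
    exact (hS x hx).2 hp
  have hc2 : (Ed r X').card = (Ed r X).card + T.card := by
    rw [hEd, Finset.card_union_of_disjoint, Finset.card_image_of_injective _ hinj]
    rw [Finset.disjoint_left]
    rintro p hp hp'
    obtain ⟨x, hx, rfl⟩ := Finset.mem_image.1 hp'
    exact (Finset.mem_filter.1 hx).2.2 hp
  have hO' : Out r X' U := by
    refine ⟨fun a b h => Finset.mem_union_left _ (hO.1 a b h), ?_, hO.2.2⟩
    apply Finset.union_subset hO.2.1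
    intro p hp
    obtain ⟨x, hx, rfl⟩ := Finset.mem_image.1 hp
    exact (hS x hx).1
  have h1 := hmin X' U hO'
  unfold oc at h1
  have h2 := Finset.card_sdiff_add_card_eq_card (sub_Ed hrefl X)
  have h3 := Finset.card_sdiff_add_card_eq_card (sub_Ed hrefl X')
  omega

open Classical in
/-- columns of an outer optimum -/
theorem colOpt {X U : Finset (V × V)} (hO : Out r X U)
    (hmin : ∀ X' U', Out r X' U' → oc r X U ≤ oc r X' U') (b : V) (S : Finset V)
    (hS : ∀ x ∈ S, (x, b) ∈ U ∧ (x, b) ∉ X) :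
    S.card ≤ (univ.filter fun z => (∃ z' ∈ S, r z' z) ∧ (z, b) ∈ Ad r U).card := by
  classical
  set T := univ.filter fun z => (∃ z' ∈ S, r z' z) ∧ (z, b) ∈ Ad r U with hT
  have hinj : Function.Injective (fun x : V => (x, b)) := fun x y h => (Prod.ext_iff.1 h).1
  set U' := U \ S.image (fun x => (x, b)) with hU'
  have hAd : Ad r U' = Ad r U \ T.image (fun x => (x, b)) := by
    ext ⟨c, y⟩
    simp only [Finset.mem_sdiff, Finset.mem_image, mem_Ad, hU', hT, Finset.mem_filter,
      Finset.mem_univ, true_and, Prod.mk.injEq, not_exists, not_and]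
    constructor
    · intro h
      refine ⟨fun z' hz' => (h z' hz').1, ?_⟩
      rintro x ⟨⟨z', hz', hr⟩, _⟩ rfl rfl
      exact (h z' hr).2 z' hz' rfl rfl
    · rintro ⟨h1, h2⟩ z' hz'
      refine ⟨h1 z' hz', ?_⟩
      rintro x hx rfl rfl
      exact h2 c ⟨⟨x, hx, hz'⟩, h1⟩ rfl rfl
  have hSU : S.image (fun x => (x, b)) ⊆ U := by
    intro p hp
    obtain ⟨x, hx, rfl⟩ := Finset.mem_image.1 hp
    exact (hS x hx).1
  have hTU : T.image (fun x => (x, b)) ⊆ Ad r U := by
    intro p hp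
    obtain ⟨x, hx, rfl⟩ := Finset.mem_image.1 hp
    exact (Finset.mem_filter.1 hx).2.2
  have hc1 : U'.card + S.card = U.card := by
    rw [hU', ← Finset.card_image_of_injective S hinj]
    exact Finset.card_sdiff_add_card_eq_card hSU
  have hc2 : (Ad r U').card + T.card = (Ad r U).card := by
    rw [hAd, ← Finset.card_image_of_injective T hinj]
    exact Finset.card_sdiff_add_card_eq_card hTU
  have hO' : Out r X U' := by
    refine ⟨hO.1, ?_, fun a b h => hO.2.2 a b (Finset.mem_sdiff.1 h).1⟩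
    intro p hp
    rw [hU', Finset.mem_sdiff]
    refine ⟨hO.2.1 hp, ?_⟩
    intro hp'
    obtain ⟨x, hx, rfl⟩ := Finset.mem_image.1 hp'
    exact (hS x hx).2 hp
  have h1 := hmin X U' hO'
  unfold oc at h1
  have h2 := Finset.card_sdiff_add_card_eq_card (Ad_sub hrefl U)
  have h3 := Finset.card_sdiff_add_card_eq_card (Ad_sub hrefl U')
  omega

end

/-- **No finite antisymmetric reflexive relation with out-degrees at least one satisfies (G).** -/
theorem no_G {V : Type u} [Fintype V] [DecidableEq V] [Nonempty V] (r : V → V → Prop)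
    (hrefl : ∀ a, r a a) (hanti : ∀ a b, r a b → r b a → a = b)
    (hout : ∀ a, ∃ b, b ≠ a ∧ r a b)
    (hG : ∀ S : Finset V, nb r S ≠ S →
      (nb r (nb r S) \ nb r S).card < (nb r S \ S).card) : False := by
  classical
  -- outer optimum
  obtain ⟨⟨X, U⟩, hXU, hmin0⟩ := Finset.exists_min_image
    (univ.filter fun p : Finset (V × V) × Finset (V × V) => Out r p.1 p.2)
    (fun p => oc r p.1 p.2) (by
      refine ⟨(univ.filter fun p => r p.1 p.2, univ.filter fun p => r p.1 p.2), ?_⟩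
      simp only [Finset.mem_filter, Finset.mem_univ, true_and]
      refine ⟨fun a b h => by simpa using h, Finset.Subset.refl _, fun a b h h' => ?_⟩
      have : r a b := by simpa using h
      exact hanti a b this h')
  have hO : Out r X U := (Finset.mem_filter.1 hXU).2
  have hmin : ∀ X' U', Out r X' U' → oc r X U ≤ oc r X' U' := fun X' U' h =>
    hmin0 (X', U') (Finset.mem_filter.2 ⟨Finset.mem_univ _, h⟩)
  have hkey := key r X U hO.2.1 (rowOpt hrefl hO hmin) (colOpt hrefl hO hmin)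
  obtain ⟨hA, hsub, hrev⟩ := hO
  -- inner pair
  set X1 := Ad r X with hX1
  set Y : Finset (V × V) := univ.filter fun p => p.1 = p.2 ∨ p ∉ Ed r U with hY
  have mem_Y : ∀ {y b : V}, (y, b) ∈ Y ↔ y = b ∨ (y, b) ∉ Ed r U := by
    intro y b; simp [hY]
  set ρ : Finset (V × V) := (Ad r (Ed r U)).filter fun p => r p.2 p.1 ∧ p.1 ≠ p.2 with hρ
  have hcostY : (Jd r Y \ Y).card ≤ (Ed r U \ Ad r (Ed r U)).card + ρ.card := by
    refine (Finset.card_le_card ?_).trans (Finset.card_union_le _ _)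
    rintro ⟨z, b⟩ hz
    rw [Finset.mem_sdiff, mem_Jd, mem_Y] at hz
    obtain ⟨⟨y, hy, hyY⟩, hz2⟩ := hz
    push Not at hz2
    obtain ⟨hzb, hzU⟩ := hz2
    rw [Finset.mem_union, Finset.mem_sdiff]
    by_cases hAd : (z, b) ∈ Ad r (Ed r U)
    · right
      rw [hρ, Finset.mem_filter]
      refine ⟨hAd, ?_, hzb⟩
      rcases mem_Y.1 hyY with rfl | h
      · exact hy
      · exact absurd (mem_Ad.1 hAd y hy) h
    · exact Or.inl ⟨hzU, hAd⟩
  -- T2
  have hT2 : (Ed r (Ad r U)).card + ρ.card ≤ (Ad r (Ed r U)).card := by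
    rw [← Finset.card_union_of_disjoint]
    · apply Finset.card_le_card
      apply Finset.union_subset (EA_sub_AE U)
      exact Finset.filter_subset _ _
    · rw [Finset.disjoint_left]
      rintro ⟨z, b⟩ h1 h2
      obtain ⟨x, hx, hx2⟩ := mem_Ed.1 h1
      obtain ⟨-, hbz, hne⟩ := Finset.mem_filter.1 h2
      have h3 := mem_Ad.1 hx2 b hbz
      have h4 := hrev b x h3 hx
      subst h4
      exact hne (hrev z b (mem_Ad.1 hx2 z (hrefl z)) hbz)
  -- inner cost at most outer optimum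
  have hinner : (Ed r X1 \ X1).card + (Jd r Y \ Y).card ≤ oc r X U := by
    unfold oc
    have e1 := Finset.card_sdiff_add_card_eq_card (Ed_mono (r := r) hsub)
    have e2 : (Ad r U \ X1).card + X1.card = (Ad r U).card :=
      Finset.card_sdiff_add_card_eq_card (Ad_mono (r := r) hsub)
    have e3 : (Ed r (Ad r U) \ Ed r X1).card + (Ed r X1).card = (Ed r (Ad r U)).card :=
      Finset.card_sdiff_add_card_eq_card (Ed_mono (r := r) (Ad_mono (r := r) hsub))
    have e4 := Finset.card_sdiff_add_card_eq_card hsub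
    have e5 := Finset.card_sdiff_add_card_eq_card (sub_Ed hrefl X1)
    have e6 := Finset.card_sdiff_add_card_eq_card (Ad_sub hrefl (Ed r U))
    have e7 := Finset.card_sdiff_add_card_eq_card (sub_Ed hrefl X)
    have e8 := Finset.card_sdiff_add_card_eq_card (Ad_sub hrefl U)
    omega
  -- outer pair from the inner pair
  set C := Jd r Y with hC
  set B := Ed r X1 with hB
  set U2 : Finset (V × V) := univ.filter fun p => p.1 = p.2 ∨ p ∉ C with hU2
  have mem_U2 : ∀ {a b : V}, (a, b) ∈ U2 ↔ a = b ∨ (a, b) ∉ C := by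
    intro y b; simp [hU2]
  have hX1refl : ∀ a, (a, a) ∈ X1 := fun a => mem_Ad.2 fun z' hz' => hA z' a hz'
  have hBA : ∀ a b, r a b → (a, b) ∈ B := fun a b h => mem_Ed.2 ⟨a, h, hX1refl a⟩
  have hBU : B ⊆ U2 := by
    rintro ⟨a, x⟩ h
    obtain ⟨y0, hy0, hy0'⟩ := mem_Ed.1 h
    rw [mem_U2]
    by_contra hcon
    push Not at hcon
    obtain ⟨hax, hCx⟩ := hcon
    obtain ⟨y, hya, hyY⟩ := mem_Jd.1 hCx
    rcases mem_Y.1 hyY with rfl | h
    · have h1 := hsub (mem_Ad.1 hy0' y hya)
      have h2 := hrev y y0 h1 hy0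
      subst h2
      exact hax (hrev a y (hsub (mem_Ad.1 hy0' a (hrefl a))) hya)
    · exact h (mem_Ed.2 ⟨y0, hy0, hsub (mem_Ad.1 hy0' y hya)⟩)
  have hO2 : Out r B U2 := by
    refine ⟨hBA, hBU, ?_⟩
    intro a b hab hr
    rcases mem_U2.1 hab with h | h
    · exact h
    · exact absurd (mem_Jd.2 ⟨b, hr, mem_Y.2 (Or.inl rfl)⟩) h
  have hU2c : (U2 \ Ad r U2).card ≤ (Jd r C \ C).card := by
    apply Finset.card_le_card
    rintro ⟨z, b⟩ hz
    rw [Finset.mem_sdiff] at hz
    obtain ⟨h1, h2⟩ := hz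
    rw [mem_Ad] at h2
    push Not at h2
    obtain ⟨z', hz', hz'2⟩ := h2
    rw [mem_U2] at hz'2
    push Not at hz'2
    obtain ⟨hz'b, hz'C⟩ := hz'2
    rw [Finset.mem_sdiff]
    refine ⟨mem_Jd.2 ⟨z', hz', hz'C⟩, ?_⟩
    rcases mem_U2.1 h1 with h | h
    · subst h
      exact absurd hz'C (by
        rcases mem_U2.1 (hBU (hBA _ _ hz')) with h | h
        · exact absurd h hz'b
        · exact h)
    · exact h
  have hle : ∀ S : Finset V, (nb r (nb r S) \ nb r S).card ≤ (nb r S \ S).card := by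
    intro S
    by_cases h : nb r S = S
    · rw [h, h]
    · exact (hG S h).le
  have hcols : (Jd r C \ C).card ≤ (C \ Y).card := by
    rw [card_cols, card_cols]
    apply Finset.sum_le_sum
    intro b _
    rw [col_Jd, hC, col_Jd]
    exact hle _
  -- some row is not closed
  have hstrict : ∃ a, nb r (row X1 a) ≠ row X1 a := by
    by_contra hcon
    push Not at hcon
    obtain ⟨C0, hC0, hC0min⟩ := Finset.exists_min_image
      (univ.filter fun S : Finset V => nb r S = S ∧ S.Nonempty) Finset.card (by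
        refine ⟨univ, ?_⟩
        simp only [Finset.mem_filter, Finset.mem_univ, true_and]
        refine ⟨Finset.Subset.antisymm (Finset.subset_univ _) (sub_nb hrefl _), ?_⟩
        exact Finset.univ_nonempty)
    obtain ⟨-, hcl, c, hc⟩ := Finset.mem_filter.1 hC0
    obtain ⟨a, hac, hca⟩ := hout c
    have haC : a ∈ C0 := by
      rw [← hcl]
      exact mem_nb.2 ⟨c, hc, hca⟩
    have h1 : nb r (row X1 a ∩ C0) = row X1 a ∩ C0 := by
      apply Finset.Subset.antisymm
      · intro x hx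
        obtain ⟨y, hy, hyx⟩ := mem_nb.1 hx
        rw [Finset.mem_inter] at hy ⊢
        constructor
        · rw [← hcon a]
          exact mem_nb.2 ⟨y, hy.1, hyx⟩
        · rw [← hcl]
          exact mem_nb.2 ⟨y, hy.2, hyx⟩
      · exact sub_nb hrefl _
    have h2 := hC0min (row X1 a ∩ C0) (Finset.mem_filter.2 ⟨Finset.mem_univ _, h1,
      ⟨a, Finset.mem_inter.2 ⟨mem_row.2 (hX1refl a), haC⟩⟩⟩)
    have h3 : row X1 a ∩ C0 = C0 := Finset.eq_of_subset_of_card_le Finset.inter_subset_right h2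
    have h4 : c ∈ row X1 a := by
      have : c ∈ row X1 a ∩ C0 := by rw [h3]; exact hc
      exact (Finset.mem_inter.1 this).1
    have h5 := hsub (mem_Ad.1 (mem_row.1 h4) a (hrefl a))
    exact hac (hrev a c h5 hca)
  have hrows : (Ed r B \ B).card < (B \ X1).card := by
    rw [card_rows, card_rows]
    obtain ⟨a, ha⟩ := hstrict
    apply Finset.sum_lt_sum
    · intro b _
      rw [row_Ed, hB, row_Ed]
      exact hle _
    · refine ⟨a, Finset.mem_univ _, ?_⟩
      rw [row_Ed, hB, row_Ed]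
      exact hG _ ha
  have hfin := hmin B U2 hO2
  have : oc r B U2 = (Ed r B \ B).card + (U2 \ Ad r U2).card := rfl
  omega

end P038.H619
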