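import Mathlib

/-! P038, helper619: the KEY LEMMA (T1) in counting form. -/

namespace P038.H619

open Finset

universe u

/-- generic matrix supported on `r` -/
theorem gen {ι : Type u} [Fintype ι] [DecidableEq ι] (r : ι → ι → Prop) :
    ∃ (K : Type u) (_ : Field K) (N : Matrix ι ι K), (∀ a b, ¬ r a b → N a b = 0) ∧
      ∀ (S : Finset ι) (m : S → ι), Function.Injective m → (∀ a : S, r a (m a)) →
        IsUnit (Matrix.det (Matrix.of fun a b : S => N a (m b))) := by
  classical
  refine ⟨FractionRing (MvPolynomial (ι × ι) ℚ), inferInstance,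
    Matrix.of fun a b => if r a b then algebraMap _ _ (MvPolynomial.X (R := ℚ) (a, b)) else 0,
    ?_, ?_⟩
  · intro a b h
    simp [h]
  · intro S m hm hr
    let P : Matrix S S (MvPolynomial (ι × ι) ℚ) :=
      Matrix.of fun a b : S => if r a (m b) then MvPolynomial.X (R := ℚ) ((a : ι), m b) else 0
    have h1 : (Matrix.of fun a b : S =>
        (Matrix.of fun a b => if r a b then algebraMap (MvPolynomial (ι × ι) ℚ)
          (FractionRing (MvPolynomial (ι × ι) ℚ)) (MvPolynomial.X (R := ℚ) (a, b)) else 0)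
          (a : ι) (m b)) =
        (algebraMap (MvPolynomial (ι × ι) ℚ)
          (FractionRing (MvPolynomial (ι × ι) ℚ))).mapMatrix P := by
      ext a b
      simp only [Matrix.of_apply, RingHom.mapMatrix_apply, Matrix.map_apply, P]
      split_ifs <;> simp
    rw [h1, ← RingHom.map_det]
    rw [isUnit_iff_ne_zero]
    intro h0
    have h2 : P.det = 0 := by
      have := (IsFractionRing.injective (MvPolynomial (ι × ι) ℚ)
        (FractionRing (MvPolynomial (ι × ι) ℚ)))
      apply this
      rw [h0, map_zero]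
    let φ : MvPolynomial (ι × ι) ℚ →+* ℚ :=
      MvPolynomial.eval (fun p : ι × ι => if ∃ s : S, (s : ι) = p.1 ∧ m s = p.2 then (1 : ℚ) else 0)
    have h3 : φ P.det = 1 := by
      rw [RingHom.map_det]
      have : φ.mapMatrix P = 1 := by
        ext a b
        simp only [RingHom.mapMatrix_apply, Matrix.map_apply, P, Matrix.of_apply]
        by_cases hab : a = b
        · subst hab
          simp only [hr, if_true, Matrix.one_apply_eq]
          simp only [φ, MvPolynomial.eval_X]
          rw [if_pos ⟨a, rfl, rfl⟩]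
        · rw [Matrix.one_apply_ne hab]
          split_ifs with hrr
          · simp only [φ, MvPolynomial.eval_X]
            rw [if_neg]
            rintro ⟨s, hs, hs'⟩
            have : s = a := Subtype.ext hs
            subst this
            exact hab (hm hs')
          · simp
      rw [this, Matrix.det_one]
    rw [h2, map_zero] at h3
    exact zero_ne_one h3

section ops
variable {ι : Type u} [Fintype ι] [DecidableEq ι] (r : ι → ι → Prop)

open Classical in
/-- row dilation (second coordinate forward) -/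
noncomputable def Ed (X : Finset (ι × ι)) : Finset (ι × ι) :=
  univ.filter fun p => ∃ x, r x p.2 ∧ (p.1, x) ∈ X

open Classical in
/-- column erosion (first coordinate) -/
noncomputable def Ad (X : Finset (ι × ι)) : Finset (ι × ι) :=
  univ.filter fun p => ∀ z, r z p.1 → (z, p.2) ∈ X

variable {r}

theorem mem_Ed {X : Finset (ι × ι)} {a x' : ι} :
    (a, x') ∈ Ed r X ↔ ∃ x, r x x' ∧ (a, x) ∈ X := by
  simp [Ed]

theorem mem_Ad {X : Finset (ι × ι)} {z b : ι} :
    (z, b) ∈ Ad r X ↔ ∀ z', r z' z → (z', b) ∈ X := by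
  simp [Ad]

end ops

section lin
variable {ι : Type u} [Fintype ι] [DecidableEq ι] {K : Type u} [Field K]

/-- extension by zero -/
def ext0 (S : Finset (ι × ι)) : (S → K) →ₗ[K] Matrix ι ι K where
  toFun f := Matrix.of fun i j => if h : (i, j) ∈ S then f ⟨(i, j), h⟩ else 0
  map_add' f g := by
    ext i j
    by_cases h : (i, j) ∈ S <;> simp [h]
  map_smul' c f := by
    ext i j
    by_cases h : (i, j) ∈ S <;> simp [h]

/-- restriction -/
def res0 (S : Finset (ι × ι)) : Matrix ι ι K →ₗ[K] (S → K) where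
  toFun F := fun p => F p.1.1 p.1.2
  map_add' f g := by
    ext p
    simp
  map_smul' c f := by
    ext p
    simp

theorem ext0_apply_mem {S : Finset (ι × ι)} (f : S → K) {i j : ι} (h : (i, j) ∈ S) :
    ext0 S f i j = f ⟨(i, j), h⟩ := by
  simp [ext0, h]

theorem ext0_apply_not {S : Finset (ι × ι)} (f : S → K) {i j : ι} (h : (i, j) ∉ S) :
    ext0 S f i j = 0 := by
  simp [ext0, h]

theorem ext0_res0_mem {S : Finset (ι × ι)} (F : Matrix ι ι K) {i j : ι} (h : (i, j) ∈ S) :
    ext0 S (res0 S F) i j = F i j := by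
  rw [ext0_apply_mem _ h]; rfl

variable {r : ι → ι → Prop} {N : Matrix ι ι K}

theorem supp_mul_right (hN : ∀ a b, ¬ r a b → N a b = 0) {Y : Finset (ι × ι)} {F : Matrix ι ι K}
    (hF : ∀ i j, (i, j) ∉ Y → F i j = 0) {i j : ι} (h : (i, j) ∉ Ed r Y) : (F * N) i j = 0 := by
  rw [Matrix.mul_apply]
  apply Finset.sum_eq_zero
  intro x _
  by_cases hr : r x j
  · have : (i, x) ∉ Y := fun hx => h (mem_Ed.2 ⟨x, hr, hx⟩)
    rw [hF _ _ this, zero_mul]
  · rw [hN _ _ hr, mul_zero]

theorem supp_mul_left (hN : ∀ a b, ¬ r a b → N a b = 0) {Y Z : Finset (ι × ι)} {F : Matrix ι ι K}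
    (hF : ∀ i j, (i, j) ∉ Z → F i j = 0) (hZ : Z ⊆ Ad r Y) {i j : ι} (h : (i, j) ∉ Y) :
    (N * F) i j = 0 := by
  rw [Matrix.mul_apply]
  apply Finset.sum_eq_zero
  intro z _
  by_cases hr : r i z
  · have : (z, j) ∉ Z := fun hx => h (mem_Ad.1 (hZ hx) i hr)
    rw [hF _ _ this, mul_zero]
  · rw [hN _ _ hr, zero_mul]

theorem EA_sub_AE (Y : Finset (ι × ι)) : Ed r (Ad r Y) ⊆ Ad r (Ed r Y) := by
  rintro ⟨z, x'⟩ h
  obtain ⟨x, hx, hx'⟩ := mem_Ed.1 h
  rw [mem_Ad] at hx' ⊢
  intro z' hz'
  exact mem_Ed.2 ⟨x, hx, hx' z' hz'⟩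

theorem Ed_mono {X Y : Finset (ι × ι)} (h : X ⊆ Y) : Ed r X ⊆ Ed r Y := by
  rintro ⟨z, x'⟩ h'
  obtain ⟨x, hx, hx'⟩ := mem_Ed.1 h'
  exact mem_Ed.2 ⟨x, hx, h hx'⟩

theorem Ad_mono {X Y : Finset (ι × ι)} (h : X ⊆ Y) : Ad r X ⊆ Ad r Y := by
  rintro ⟨z, x'⟩ h'
  rw [mem_Ad] at h' ⊢
  intro z' hz'
  exact h (h' z' hz')

end lin

open Classical in
/-- KEY LEMMA, counting form. -/
theorem key {ι : Type u} [Fintype ι] [DecidableEq ι] (r : ι → ι → Prop)
    (X U : Finset (ι × ι)) (hXU : X ⊆ U)
    (ha : ∀ a (S : Finset ι), (∀ x ∈ S, (a, x) ∈ U ∧ (a, x) ∉ X) →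
      S.card ≤ (univ.filter fun x' => (∃ x ∈ S, r x x') ∧ (a, x') ∉ Ed r X).card)
    (hc : ∀ b (S : Finset ι), (∀ x ∈ S, (x, b) ∈ U ∧ (x, b) ∉ X) →
      S.card ≤ (univ.filter fun z => (∃ z' ∈ S, r z' z) ∧ (z, b) ∈ Ad r U).card) :
    (Ed r U \ Ed r X).card + (Ad r U \ Ad r X).card ≤
      (Ed r (Ad r U) \ Ed r (Ad r X)).card + (U \ X).card := by
  obtain ⟨K, hK, N, hN, hdet⟩ := gen r
  -- (a*)
  have hastar : ∀ (a : ι) (f : ι → K), (∀ x, (a, x) ∉ U → f x = 0) →
      (∀ x', (a, x') ∉ Ed r X → ∑ x, f x * N x x' = 0) → ∀ x, (a, x) ∉ X → f x = 0 := by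
    intro a f hf1 hf2
    set S : Finset ι := univ.filter fun x => (a, x) ∈ U ∧ (a, x) ∉ X with hS
    have hall : ∃ m : S → ι, Function.Injective m ∧
        ∀ x : S, m x ∈ univ.filter fun x' => r x x' ∧ (a, x') ∉ Ed r X := by
      rw [← Finset.all_card_le_biUnion_card_iff_exists_injective]
      intro s
      have := ha a (s.map (Function.Embedding.subtype _)) (by
        intro x hx
        simp only [Finset.mem_map, Function.Embedding.coe_subtype, Subtype.exists] at hx
        obtain ⟨y, hy, -, rfl⟩ := hx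
        simpa [hS] using hy)
      rw [Finset.card_map] at this
      refine this.trans (Finset.card_le_card ?_)
      intro x' hx'
      simp only [Finset.mem_filter, Finset.mem_univ, true_and, Finset.mem_map,
        Function.Embedding.coe_subtype] at hx'
      obtain ⟨⟨x, ⟨y, hy, rfl⟩, hxr⟩, hE⟩ := hx'
      simp only [Finset.mem_biUnion, Finset.mem_filter, Finset.mem_univ, true_and]
      exact ⟨y, hy, hxr, hE⟩
    obtain ⟨m, hm, hm'⟩ := hall
    have hm2 : ∀ x : S, r x (m x) ∧ (a, m x) ∉ Ed r X := by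
      intro x
      have := hm' x
      simpa using this
    have hu := hdet S m hm (fun x => (hm2 x).1)
    have hz : Matrix.vecMul (fun x : S => f x) (Matrix.of fun a b : S => N a (m b)) = 0 := by
      ext y
      simp only [Matrix.vecMul, dotProduct, Matrix.of_apply, Pi.zero_apply]
      have h0 := hf2 (m y) (hm2 y).2
      rw [← Finset.sum_subset (Finset.subset_univ S)] at h0
      · rw [← h0, ← Finset.sum_coe_sort S (fun x => f x * N x (m y))]
      · intro x _ hx
        by_cases hxU : (a, x) ∈ U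
        · have hxX : (a, x) ∈ X := by
            by_contra hxX
            exact hx (by simp [hS, hxU, hxX])
          have : ¬ r x (m y) := fun hr => (hm2 y).2 (mem_Ed.2 ⟨x, hr, hxX⟩)
          rw [hN _ _ this, mul_zero]
        · rw [hf1 x hxU, zero_mul]
    have hf0 : (fun x : S => f x) = 0 := by
      have hinj := Matrix.vecMul_injective_of_isUnit
        ((Matrix.isUnit_iff_isUnit_det _).2 hu)
      exact hinj (hz.trans (Matrix.zero_vecMul _).symm)
    intro x hx
    by_cases hxU : (a, x) ∈ U
    · have hxS : x ∈ S := by simp [hS, hxU, hx]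
      exact congrFun hf0 ⟨x, hxS⟩
    · exact hf1 x hxU
  -- (c*)
  have hcstar : ∀ (b : ι) (h : ι → K), ∃ g : ι → K, (∀ z, (z, b) ∉ Ad r U → g z = 0) ∧
      ∀ y, (y, b) ∈ U → (y, b) ∉ X → ∑ z, N y z * g z = h y := by
    intro b h
    set S : Finset ι := univ.filter fun x => (x, b) ∈ U ∧ (x, b) ∉ X with hS
    have hall : ∃ m : S → ι, Function.Injective m ∧
        ∀ x : S, m x ∈ univ.filter fun x' => r x x' ∧ (x', b) ∈ Ad r U := by
      rw [← Finset.all_card_le_biUnion_card_iff_exists_injective]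
      intro s
      have := hc b (s.map (Function.Embedding.subtype _)) (by
        intro x hx
        simp only [Finset.mem_map, Function.Embedding.coe_subtype, Subtype.exists] at hx
        obtain ⟨y, hy, -, rfl⟩ := hx
        simpa [hS] using hy)
      rw [Finset.card_map] at this
      refine this.trans (Finset.card_le_card ?_)
      intro x' hx'
      simp only [Finset.mem_filter, Finset.mem_univ, true_and, Finset.mem_map,
        Function.Embedding.coe_subtype] at hx'
      obtain ⟨⟨x, ⟨y, hy, rfl⟩, hxr⟩, hE⟩ := hx'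
      simp only [Finset.mem_biUnion, Finset.mem_filter, Finset.mem_univ, true_and]
      exact ⟨y, hy, hxr, hE⟩
    obtain ⟨m, hm, hm'⟩ := hall
    have hm2 : ∀ x : S, r x (m x) ∧ (m x, b) ∈ Ad r U := by
      intro x
      have := hm' x
      simpa using this
    have hu := hdet S m hm (fun x => (hm2 x).1)
    set B : Matrix S S K := Matrix.of fun a b : S => N a (m b) with hB
    let c : S → K := Matrix.mulVec B⁻¹ (fun y : S => h y)
    have hBc : Matrix.mulVec B c = fun y : S => h y := by
      simp only [c, Matrix.mulVec_mulVec]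
      rw [Matrix.mul_nonsing_inv B hu, Matrix.one_mulVec]
    refine ⟨fun z => ∑ y : S, if m y = z then c y else 0, ?_, ?_⟩
    · intro z hz
      apply Finset.sum_eq_zero
      intro y _
      rw [if_neg]
      rintro rfl
      exact hz (hm2 y).2
    · intro y hyU hyX
      have hyS : y ∈ S := by simp [hS, hyU, hyX]
      have h1 := congrFun hBc ⟨y, hyS⟩
      simp only [Matrix.mulVec, dotProduct, hB, Matrix.of_apply] at h1
      rw [← h1]
      simp_rw [Finset.mul_sum]
      rw [Finset.sum_comm]
      apply Finset.sum_congr rfl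
      intro y' _
      simp [mul_ite]
  -- the complex
  set P := Ed r U \ Ed r X with hP
  set Q := Ad r U \ Ad r X with hQ
  set R := Ed r (Ad r U) \ Ed r (Ad r X) with hR
  set G := U \ X with hG
  let L : Matrix ι ι K →ₗ[K] Matrix ι ι K := LinearMap.mulLeft K N
  let M : Matrix ι ι K →ₗ[K] Matrix ι ι K := LinearMap.mulRight K N
  let Φ : (Q → K) →ₗ[K] (G → K) × (R → K) :=
    LinearMap.prod (res0 G ∘ₗ L ∘ₗ ext0 Q) (res0 R ∘ₗ M ∘ₗ ext0 Q)
  let Ψ : (G → K) × (R → K) →ₗ[K] (P → K) :=
    LinearMap.coprod (-(res0 P ∘ₗ M ∘ₗ ext0 G)) (res0 P ∘ₗ L ∘ₗ ext0 R)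
  have hQU : Q ⊆ Ad r U := Finset.sdiff_subset
  -- general splitting facts
  have splitR : ∀ F : Matrix ι ι K, (∀ i j, (i, j) ∉ Ed r (Ad r U) → F i j = 0) →
      ∀ i j, (i, j) ∈ P → (N * ext0 R (res0 R F)) i j = (N * F) i j := by
    intro F hF i j hij
    have hsub : (N * (F - ext0 R (res0 R F))) i j = 0 := by
      apply supp_mul_left hN (Y := Ed r X) (Z := Ed r (Ad r X)) (r := r)
      · intro i' j' h'
        by_cases h1 : (i', j') ∈ Ed r (Ad r U)
        · have : (i', j') ∈ R := by simp [hR, h1, h']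
          rw [Matrix.sub_apply, ext0_res0_mem _ this, sub_self]
        · have : (i', j') ∉ R := by simp [hR, h1]
          rw [Matrix.sub_apply, ext0_apply_not _ this, hF _ _ h1, sub_self]
      · exact EA_sub_AE X
      · exact (Finset.mem_sdiff.1 hij).2
    rw [Matrix.mul_sub, Matrix.sub_apply, sub_eq_zero] at hsub
    exact hsub.symm
  have splitG : ∀ F : Matrix ι ι K, (∀ i j, (i, j) ∉ U → F i j = 0) →
      ∀ i j, (i, j) ∈ P → (ext0 G (res0 G F) * N) i j = (F * N) i j := by
    intro F hF i j hij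
    have hsub : ((F - ext0 G (res0 G F)) * N) i j = 0 := by
      apply supp_mul_right hN (Y := X) (r := r)
      · intro i' j' h'
        by_cases h1 : (i', j') ∈ U
        · have : (i', j') ∈ G := by simp [hG, h1, h']
          rw [Matrix.sub_apply, ext0_res0_mem _ this, sub_self]
        · have : (i', j') ∉ G := by simp [hG, h1]
          rw [Matrix.sub_apply, ext0_apply_not _ this, hF _ _ h1, sub_self]
      · exact (Finset.mem_sdiff.1 hij).2
    rw [Matrix.sub_mul, Matrix.sub_apply, sub_eq_zero] at hsub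
    exact hsub.symm
  have hcomp : ∀ f, Ψ (Φ f) = 0 := by
    intro f
    ext p
    obtain ⟨⟨i, j⟩, hp⟩ := p
    have hF : ∀ i j, (i, j) ∉ Q → ext0 Q f i j = 0 := fun i j h => ext0_apply_not f h
    have e1 : (ext0 G (res0 G (N * ext0 Q f)) * N) i j = (N * ext0 Q f * N) i j := by
      apply splitG _ _ _ _ hp
      intro i' j' h'
      exact supp_mul_left hN hF hQU h'
    have e2 : (N * ext0 R (res0 R (ext0 Q f * N))) i j = (N * (ext0 Q f * N)) i j := by
      apply splitR _ _ _ _ hp
      intro i' j' h'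
      apply supp_mul_right hN (Y := Ad r U) _ h'
      intro i'' j'' h''
      exact hF _ _ (fun h => h'' (hQU h))
    have : Ψ (Φ f) ⟨(i, j), hp⟩ = -((ext0 G (res0 G (N * ext0 Q f)) * N) i j) +
        (N * ext0 R (res0 R (ext0 Q f * N))) i j := rfl
    rw [this, e1, e2, Matrix.mul_assoc]
    simp
  have hinj : Function.Injective Φ := by
    rw [← LinearMap.ker_eq_bot, LinearMap.ker_eq_bot']
    intro f hf
    have hf2 : res0 R (ext0 Q f * N) = 0 := congrArg Prod.snd hf
    have hsupp : ∀ i j, (i, j) ∉ Ed r (Ad r X) → (ext0 Q f * N) i j = 0 := by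
      intro i j h
      by_cases h1 : (i, j) ∈ Ed r (Ad r U)
      · have hR' : (i, j) ∈ R := by simp [hR, h1, h]
        exact congrFun hf2 ⟨(i, j), hR'⟩
      · apply supp_mul_right hN (Y := Ad r U) _ h1
        intro i'' j'' h''
        exact ext0_apply_not _ (fun h => h'' (hQU h))
    ext p
    obtain ⟨⟨z, b⟩, hp⟩ := p
    have hnot : (z, b) ∉ Ad r X := (Finset.mem_sdiff.1 hp).2
    rw [mem_Ad] at hnot
    push Not at hnot
    obtain ⟨z', hz', hz'X⟩ := hnot
    have := hastar z' (fun x => ext0 Q f z x) (by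
        intro x hx
        apply ext0_apply_not
        intro hq
        exact hx (mem_Ad.1 (hQU hq) z' hz')) (by
        intro x' hx'
        have h1 : (z, x') ∉ Ed r (Ad r X) := fun h => hx' (mem_Ad.1 (EA_sub_AE X h) z' hz')
        have h2 := hsupp z x' h1
        rw [Matrix.mul_apply] at h2
        exact h2) b hz'X
    rw [ext0_apply_mem _ hp] at this
    exact this
  have hsurj : Function.Surjective Ψ := by
    rw [← LinearMap.range_eq_top, eq_top_iff]
    rw [← (Pi.basisFun K P).span_eq, Submodule.span_le]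
    rintro _ ⟨p, rfl⟩
    obtain ⟨⟨z', x'⟩, hp⟩ := p
    obtain ⟨hpU, hpX⟩ := Finset.mem_sdiff.1 hp
    obtain ⟨x, hx, hxU⟩ := mem_Ed.1 hpU
    have hxX : (z', x) ∉ X := fun h => hpX (mem_Ed.2 ⟨x, hx, h⟩)
    obtain ⟨g, hg1, hg2⟩ := hcstar x (fun y => if y = z' then 1 else 0)
    let H : Matrix ι ι K := Matrix.of fun i j => if j = x' then g i else 0
    have hH : ∀ i j, (i, j) ∉ Ed r (Ad r U) → H i j = 0 := by
      intro i j h
      simp only [H, Matrix.of_apply]
      split_ifs with hj
      · subst hj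
        apply hg1
        intro h'
        exact h (mem_Ed.2 ⟨x, hx, h'⟩)
      · rfl
    refine ⟨(0, res0 R H), ?_⟩
    ext q
    obtain ⟨⟨y, j⟩, hq⟩ := q
    have : Ψ (0, res0 R H) ⟨(y, j), hq⟩ = -((ext0 G (0 : G → K) * N) y j) +
        (N * ext0 R (res0 R H)) y j := rfl
    rw [this, splitR H hH y j hq, map_zero, Matrix.zero_mul, Matrix.zero_apply, neg_zero, zero_add]
    rw [Pi.basisFun_apply]
    obtain ⟨hqU, hqX⟩ := Finset.mem_sdiff.1 hq
    by_cases hj : j = x'
    · subst hj
      have hNH : (N * H) y j = ∑ z, N y z * g z := by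
        rw [Matrix.mul_apply]
        simp [H]
      rw [hNH]
      have hyX : (y, x) ∉ X := fun h => hqX (mem_Ed.2 ⟨x, hx, h⟩)
      by_cases hyU : (y, x) ∈ U
      · rw [hg2 y hyU hyX]
        by_cases hyz : y = z'
        · subst hyz; simp
        · rw [if_neg hyz, Pi.single_eq_of_ne]
          intro h
          apply hyz
          have := congrArg (fun q : P => q.1.1) h
          exact this
      · have hyz : y ≠ z' := by
          rintro rfl
          exact hyU hxU
        rw [Pi.single_eq_of_ne]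
        · apply Finset.sum_eq_zero
          intro z _
          by_cases hr : r y z
          · rw [hg1 z, mul_zero]
            intro h
            exact hyU (mem_Ad.1 h y hr)
          · rw [hN _ _ hr, zero_mul]
        · intro h
          apply hyz
          have := congrArg (fun q : P => q.1.1) h
          exact this
    · rw [Pi.single_eq_of_ne]
      · rw [Matrix.mul_apply]
        apply Finset.sum_eq_zero
        intro z _
        simp [H, hj]
      · intro h
        apply hj
        have := congrArg (fun q : P => q.1.2) h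
        exact this
  -- dimension count
  have h1 : Module.finrank K (LinearMap.range Φ) = Q.card := by
    rw [LinearMap.finrank_range_of_inj hinj]
    simp
  have h2 : LinearMap.range Φ ≤ LinearMap.ker Ψ := by
    rintro _ ⟨f, rfl⟩
    exact hcomp f
  have h3 := LinearMap.finrank_range_add_finrank_ker Ψ
  rw [LinearMap.range_eq_top.2 hsurj, finrank_top] at h3
  have h4 := Submodule.finrank_mono h2
  rw [h1] at h4
  have h5 : Module.finrank K ((G → K) × (R → K)) = G.card + R.card := by
    rw [Module.finrank_prod]; simp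
  have h6 : Module.finrank K (P → K) = P.card := by simp
  rw [h5, h6] at h3
  omega

end P038.H619
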